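import Vale.Agent.P011.H500.Rl.Tan
import Vale.Agent.P011.H706.Rl.DTq
import Vale.Agent.P011.H706.Rl.Pow
import Vale.Agent.P011.H138.Rl.RC
import Vale.Agent.P011.H974.Rl.Span
import Vale.Agent.P011.H327.Star.Lim
import Vale.Agent.P011.H261.Rl.Top

/-!
The Lie algebra of the closure of a subgroup of finite index is the whole one at each place.
-/

open Matrix Filter Topology NormedSpace

namespace Vale.Agent.P011.H500.Rl

open Vale.Agent.P011.MPQ
open Vale.Agent.P011.D4 Vale.Agent.P011.D4.Oct Vale.Agent.P011.E6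
open Vale.Agent.P011.E6W.H964 (Sy)
open Vale.Agent.P011.E6O (InD0)
open Vale.Agent.P011.E6H
open Vale.Agent.P011.H261.Rl
open scoped ComplexConjugate

variable {k E : Type} [Field k] [NumberField k] [Field E] [NumberField E] [Algebra k E]
  {ρ σ : E ≃ₐ[k] E} {lam : Eˣ} {g : Fin 3 → Eˣ} {kap a b c : kˣ}

/-- The generating tangent vectors at an embedding. -/
def Gen (ρ σ : E ≃ₐ[k] E) (lam : Eˣ) (g : Fin 3 → Eˣ) (φ : E →+* ℂ) (a b c : kˣ) :
    Set (RE φ a b c) :=
  {X | ∃ (a' b' c' : kˣ) (i j l : Oct a b c) (ht : Trip a' b' c' i j l)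
    (x : Matrix (Fin 3) (Fin 3) E), InD0 ρ lam x ∧ Sy σ g x ∧ X = DT ht φ (x.map φ)}

/-- The span of the generating tangent vectors. -/
theorem DT_mem_Gen (hS : IsSextic ρ σ kap) (hg : IsForm ρ σ lam g) (φ : E →+* ℂ)
    {a' b' c' : kˣ} {i j l : Oct a b c} (ht : Trip a' b' c' i j l)
    (M : Matrix (Fin 3) (Fin 3) ℂ) : DT ht φ M ∈ Submodule.span ℂ (Gen ρ σ lam g φ a b c) := by
  refine Submodule.span_mono ?_ (DT_mem_span ht φ (H974.Rl.span_sy hS hg φ M))
  rintro X ⟨z, ⟨x, hx, hs, rfl⟩, rfl⟩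
  exact ⟨a', b', c', i, j, l, ht, x, hx, hs, rfl⟩

/-- The generating tangent vectors are in the Lie algebra of the closure of the subgroup. -/
theorem Gen_mem {S : Type} [Fintype S] [DecidableEq S] (φ : S → E →+* ℂ)
    (hφ : ∀ v v', (∀ x : k, ‖φ v (algebraMap k E x)‖ = ‖φ v' (algebraMap k E x)‖) → v = v')
    (N : Subgroup (G3 ρ σ lam g a b c)) (hN : N.index ≠ 0) (v : S) {z : ℂ}
    (hz : (∀ x : k, conj (φ v (algebraMap k E x)) = φ v (algebraMap k E x)) → conj z = z)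
    {X : RE (φ v) a b c} (hX : X ∈ Gen ρ σ lam g (φ v) a b c) :
    (Pi.single v (z • X) : ∀ v : S, RE (φ v) a b c) ∈ lieOf (Lcl φ N) := by
  obtain ⟨a', b', c', i, j, l, ht, x, hx, hs, rfl⟩ := hX
  have e : z • DT ht (φ v) (x.map (φ v)) = DT ht (φ v) ((2 * (z / 2)) • x.map (φ v)) := by
    rw [mul_div_cancel₀ z two_ne_zero, DT_smul]
  rw [e]
  exact H706.Rl.lie_pow φ N hN _ (single_mem ht φ hφ hx hs v (z := z / 2) fun h => by
    rw [map_div₀, hz h, Complex.conj_ofNat])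

theorem Gen_mem_one {S : Type} [Fintype S] [DecidableEq S] (φ : S → E →+* ℂ)
    (hφ : ∀ v v', (∀ x : k, ‖φ v (algebraMap k E x)‖ = ‖φ v' (algebraMap k E x)‖) → v = v')
    (N : Subgroup (G3 ρ σ lam g a b c)) (hN : N.index ≠ 0) (v : S)
    {X : RE (φ v) a b c} (hX : X ∈ Gen ρ σ lam g (φ v) a b c) :
    (Pi.single v X : ∀ v : S, RE (φ v) a b c) ∈ lieOf (Lcl φ N) := by
  have e : X = (1 : ℂ) • X := by
    apply ContinuousLinearMap.ext
    intro u
    exact (one_smul ℂ (X u)).symm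
  rw [e]
  exact Gen_mem φ hφ N hN v (fun _ => map_one _) hX

/-- The Lie algebra of the closure of a subgroup of finite index. -/
theorem front (hS : IsSextic ρ σ kap) (_ : Oct.Division a b c) (hg : IsForm ρ σ lam g) :
    Front ρ σ lam g a b c := by
  intro S _ _ φ hφ N hN v
  exact H327.Star.ll_of_gen φ N v (Gen ρ σ lam g (φ v) a b c)
    (fun X hX => Gen_mem_one φ hφ N hN v hX)
    (fun h1 h2 X hX => Gen_mem φ hφ N hN v (fun h => by
      obtain ⟨x, hx⟩ := H138.Rl.real_or hS (φ v) h1 h2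
      exact absurd (h x) hx) hX)
    (fun q hq =>
      H706.Rl.hq_of_DT (φ v) _ (fun a' b' c' i j l ht M => DT_mem_Gen hS hg (φ v) ht M) q hq)

end Vale.Agent.P011.H500.Rl
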