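import Mathlib.Analysis.Normed.Module.FiniteDimension
import Mathlib.Analysis.Complex.Basic
import Mathlib.Topology.Instances.Matrix

/-!
Limits of linear and bilinear maps between finite-dimensional spaces.
-/

open Filter Topology

namespace Vale.Agent.P011.H500.Rl

section span

variable {V : Type*} [NormedAddCommGroup V] [NormedSpace ℂ V] [FiniteDimensional ℂ V]

/-- Operators which converge on a generating set converge. -/
theorem tendsto_of_span {S : Set V} (hS : Submodule.span ℂ S = ⊤) {g : ℕ → V →L[ℂ] V}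
    {Z : V →L[ℂ] V} (h : ∀ v ∈ S, Tendsto (fun n => g n v) atTop (𝓝 (Z v))) :
    Tendsto g atTop (𝓝 Z) := by
  have h1 : ∀ v, Tendsto (fun n => g n v) atTop (𝓝 (Z v)) := by
    intro v
    have hv : v ∈ Submodule.span ℂ S := hS ▸ Submodule.mem_top
    induction hv using Submodule.span_induction with
    | mem x hx => exact h x hx
    | zero => simp
    | add x y _ _ hx hy => simpa using hx.add hy
    | smul t x _ hx => simpa using hx.const_smul t
  let b := Module.finBasis ℂ V
  let e : (V →L[ℂ] V) →ₗ[ℂ] (Fin (Module.finrank ℂ V) → V) :=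
    { toFun := fun f i => f (b i)
      map_add' := fun _ _ => rfl
      map_smul' := fun _ _ => rfl }
  have hinj : LinearMap.ker e = ⊥ := by
    rw [LinearMap.ker_eq_bot]
    intro f f' hf
    ext v
    have : (f : V →ₗ[ℂ] V) = f' := b.ext fun i => congrFun hf i
    exact DFunLike.congr_fun this v
  have hemb := (LinearMap.isClosedEmbedding_of_injective hinj).isEmbedding
  rw [hemb.tendsto_nhds_iff, tendsto_pi_nhds]
  exact fun i => h1 (b i)

end span

section bilin

variable {W V : Type*} [AddCommGroup W] [Module ℂ W] [TopologicalSpace W] [IsTopologicalAddGroup W]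
  [ContinuousSMul ℂ W] [T2Space W] [FiniteDimensional ℂ W] [AddCommGroup V] [Module ℂ V]
  [TopologicalSpace V] [IsTopologicalAddGroup V] [ContinuousSMul ℂ V]

theorem tendsto_lin (B : W →ₗ[ℂ] V) {p : ℕ → W} {P : W} (hp : Tendsto p atTop (𝓝 P)) :
    Tendsto (fun n => B (p n)) atTop (𝓝 (B P)) :=
  ((LinearMap.continuous_of_finiteDimensional B).tendsto P).comp hp

theorem tendsto_bilin (B : W →ₗ[ℂ] W →ₗ[ℂ] V) {p q : ℕ → W} {P Q : W}
    (hp : Tendsto p atTop (𝓝 P)) (hq : Tendsto q atTop (𝓝 Q)) :
    Tendsto (fun n => B (p n) (q n)) atTop (𝓝 (B P Q)) := by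
  let b := Module.finBasis ℂ W
  have e : ∀ x y, B x y = ∑ i, b.repr y i • B x (b i) := by
    intro x y
    conv_lhs => rw [← b.sum_repr y, map_sum]
    simp only [map_smul]
  rw [e P Q]
  refine Tendsto.congr (fun n => (e _ _).symm) (tendsto_finsetSum _ fun i _ => ?_)
  refine Tendsto.smul ?_ (tendsto_lin (B.flip (b i)) hp)
  exact tendsto_lin (b.coord i) hq

end bilin

end Vale.Agent.P011.H500.Rl
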