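import Vale.Agent.P011.H500.Rl.Cay
import Vale.Agent.P011.H500.Rl.Lim
import Vale.Agent.P011.H261.Rl.Elem

/-!
The action of the matrices `x + y j` near the identity.
-/

open Matrix Filter Topology

namespace Vale.Agent.P011.H500.Rl

open Vale.Agent.P011.MPQ
open Vale.Agent.P011.D4 Vale.Agent.P011.D4.Oct Vale.Agent.P011.E6
open Vale.Agent.P011.E6W.H964 (Xm XU)
open Vale.Agent.P011.H261.Rl

section alg

variable {F : Type} [Field F] {a b c : Fˣ}

/-- The space of pairs of matrices. -/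
abbrev WW (F : Type) : Type := Matrix (Fin 3) (Fin 3) F × Matrix (Fin 3) (Fin 3) F

/-- The matrix `x + y j`. -/
def xm (a b : Fˣ) (p : WW F) : Matrix (Fin 3) (Fin 3) (Qt a b) := Xm a b p.1 p.2

theorem xm_add (p q : WW F) : xm a b (p + q) = xm a b p + xm a b q := by
  apply Matrix.ext
  intro i j
  apply QuaternionAlgebra.ext <;> simp [xm, Xm]

theorem xm_smul (t : F) (p : WW F) : xm a b (t • p) = t • xm a b p := by
  apply Matrix.ext
  intro i j
  apply QuaternionAlgebra.ext <;> simp [xm, Xm]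

theorem xm_one : xm a b ((1 : Matrix (Fin 3) (Fin 3) F), 0) = 1 := Vale.Agent.P011.E6W.H964.Xm_one

theorem ct_smul (t : F) (M : Matrix (Fin 3) (Fin 3) (Qt a b)) : (t • M)ᴴ = t • Mᴴ := by
  apply Matrix.ext
  intro i j
  exact QuaternionAlgebra.star_smul _ _

/-- The involution `x + y j ↦ x - y j`. -/
def ng (p : WW F) : WW F := (p.1, -p.2)

theorem ng_add (p q : WW F) : ng (p + q) = ng p + ng q := by
  simp only [ng, Prod.fst_add, Prod.snd_add, neg_add]
  rfl

theorem ng_smul (t : F) (p : WW F) : ng (t • p) = t • ng p := by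
  simp only [ng, Prod.smul_fst, Prod.smul_snd, ← smul_neg]
  rfl

theorem ofMV_add (S S' : Matrix (Fin 3) (Fin 3) (Qt a b)) (v v' : Fin 3 → Qt a b) :
    (Alb.ofMV (S + S') (v + v') : Alb a b c) = Alb.ofMV S v + Alb.ofMV S' v' := rfl

theorem ofMV_smul (t : F) (S : Matrix (Fin 3) (Fin 3) (Qt a b)) (v : Fin 3 → Qt a b) :
    (Alb.ofMV (t • S) (t • v) : Alb a b c) = t • Alb.ofMV S v := rfl

theorem ofMV_mat_vec (v : Alb a b c) : Alb.ofMV (Alb.mat v) (Alb.vec v) = v := by
  ext1 <;> simp [Alb.ofMV, Alb.mat, Alb.vec]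

theorem mat_add (x y : Alb a b c) : Alb.mat (x + y) = Alb.mat x + Alb.mat y := by
  apply Matrix.ext
  intro i j
  fin_cases i <;> fin_cases j <;> simp [Alb.mat]

theorem mat_smul (t : F) (x : Alb a b c) : Alb.mat (t • x) = t • Alb.mat x := by
  apply Matrix.ext
  intro i j
  fin_cases i <;> fin_cases j <;> simp [Alb.mat, Algebra.algebraMap_eq_smul_one, mul_smul]

theorem vec_add (x y : Alb a b c) : Alb.vec (x + y) = Alb.vec x + Alb.vec y := by
  funext i
  fin_cases i <;> rfl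

theorem vec_smul (t : F) (x : Alb a b c) : Alb.vec (t • x) = t • Alb.vec x := by
  funext i
  fin_cases i <;> rfl

/-- The action with two matrices. -/
def actM (m m' : Matrix (Fin 3) (Fin 3) (Qt a b)) (v : Alb a b c) : Alb a b c :=
  Alb.ofMV (m * Alb.mat v * mᴴ) (Matrix.vecMul (Alb.vec v) m')

theorem act_eq (g : (Matrix (Fin 3) (Fin 3) (Qt a b))ˣ) (v : Alb a b c) : Alb.act g 1 v =
    actM (g : Matrix (Fin 3) (Fin 3) (Qt a b)) ((g⁻¹ : (Matrix (Fin 3) (Fin 3) (Qt a b))ˣ) :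
      Matrix (Fin 3) (Fin 3) (Qt a b)) v := by
  rw [Alb.act, actM]
  congr 1
  funext i
  rw [one_mul]

/-- The first variation. -/
def F1 (v : Alb a b c) : WW F →ₗ[F] Alb a b c where
  toFun p := Alb.ofMV (xm a b p * Alb.mat v + Alb.mat v * (xm a b p)ᴴ)
    (Matrix.vecMul (Alb.vec v) (xm a b (ng p)))
  map_add' p q := by
    rw [← ofMV_add, xm_add, ng_add, xm_add, Matrix.conjTranspose_add, Matrix.add_mul,
      Matrix.mul_add, Matrix.vecMul_add]
    congr 1
    abel
  map_smul' t p := by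
    rw [RingHom.id_apply, ← ofMV_smul, xm_smul, ng_smul, xm_smul, ct_smul, Matrix.smul_mul,
      Matrix.mul_smul, Matrix.vecMul_smul, smul_add]

/-- The second variation. -/
def F2 (v : Alb a b c) : WW F →ₗ[F] WW F →ₗ[F] Alb a b c :=
  LinearMap.mk₂ F (fun p q => Alb.ofMV (xm a b p * Alb.mat v * (xm a b q)ᴴ) 0)
    (fun p p' q => by
      rw [← ofMV_add, xm_add, Matrix.add_mul, Matrix.add_mul, add_zero])
    (fun t p q => by
      rw [← ofMV_smul, xm_smul, Matrix.smul_mul, Matrix.smul_mul, smul_zero])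
    (fun p q q' => by
      rw [← ofMV_add, xm_add, Matrix.conjTranspose_add, Matrix.mul_add, add_zero])
    (fun t p q => by
      rw [← ofMV_smul, xm_smul, ct_smul, Matrix.mul_smul, smul_zero])

theorem act_expand (v : Alb a b c) (p : WW F) :
    actM (xm a b ((1, 0) + p)) (xm a b (ng ((1, 0) + p))) v = v + F1 v p + F2 v p p := by
  have h1 : xm a b ((1, 0) + p) = 1 + xm a b p := by rw [xm_add, xm_one]
  have h2 : xm a b (ng ((1, 0) + p)) = 1 + xm a b (ng p) := by
    rw [ng_add, xm_add]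
    congr 1
    rw [ng, neg_zero]
    exact xm_one
  rw [actM, h1, h2]
  change _ = v + Alb.ofMV (xm a b p * Alb.mat v + Alb.mat v * (xm a b p)ᴴ)
    (Matrix.vecMul (Alb.vec v) (xm a b (ng p))) + Alb.ofMV (xm a b p * Alb.mat v * (xm a b p)ᴴ) 0
  conv_rhs => rw [← ofMV_mat_vec v]
  rw [← ofMV_add, ← ofMV_add, ofMV_mat_vec, Matrix.conjTranspose_add, Matrix.conjTranspose_one,
    Matrix.vecMul_add, Matrix.vecMul_one, add_zero]
  congr 1
  rw [Matrix.add_mul, Matrix.one_mul, Matrix.mul_add, Matrix.mul_one, Matrix.add_mul]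
  abel

/-- The derivation attached to `M j`. -/
def DD (M : Matrix (Fin 3) (Fin 3) F) : Alb a b c →ₗ[F] Alb a b c where
  toFun v := F1 v (0, M)
  map_add' x y := by
    change Alb.ofMV (xm a b (0, M) * Alb.mat (x + y) + Alb.mat (x + y) * (xm a b (0, M))ᴴ)
      (Matrix.vecMul (Alb.vec (x + y)) (xm a b (ng (0, M)))) = _
    rw [mat_add, vec_add, Matrix.mul_add, Matrix.add_mul, Matrix.add_vecMul]
    change _ = Alb.ofMV (xm a b (0, M) * Alb.mat x + Alb.mat x * (xm a b (0, M))ᴴ)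
      (Matrix.vecMul (Alb.vec x) (xm a b (ng (0, M)))) +
      Alb.ofMV (xm a b (0, M) * Alb.mat y + Alb.mat y * (xm a b (0, M))ᴴ)
      (Matrix.vecMul (Alb.vec y) (xm a b (ng (0, M))))
    rw [← ofMV_add]
    congr 1
    abel
  map_smul' t x := by
    change Alb.ofMV (xm a b (0, M) * Alb.mat (t • x) + Alb.mat (t • x) * (xm a b (0, M))ᴴ)
      (Matrix.vecMul (Alb.vec (t • x)) (xm a b (ng (0, M)))) = t •
      Alb.ofMV (xm a b (0, M) * Alb.mat x + Alb.mat x * (xm a b (0, M))ᴴ)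
      (Matrix.vecMul (Alb.vec x) (xm a b (ng (0, M))))
    rw [mat_smul, vec_smul, Matrix.mul_smul, Matrix.smul_mul, Matrix.smul_vecMul, ← ofMV_smul,
      smul_add]

theorem DD_apply (M : Matrix (Fin 3) (Fin 3) F) (v : Alb a b c) : DD M v = F1 v (0, M) := rfl

theorem DD_add (M M' : Matrix (Fin 3) (Fin 3) F) :
    (DD (M + M') : Alb a b c →ₗ[F] Alb a b c) = DD M + DD M' := by
  apply LinearMap.ext
  intro v
  rw [LinearMap.add_apply, DD_apply, DD_apply, DD_apply, ← map_add]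
  congr 1
  rw [Prod.mk_add_mk, add_zero]

theorem DD_smul (t : F) (M : Matrix (Fin 3) (Fin 3) F) :
    (DD (t • M) : Alb a b c →ₗ[F] Alb a b c) = t • DD M := by
  apply LinearMap.ext
  intro v
  rw [LinearMap.smul_apply, DD_apply, DD_apply, ← map_smul]
  congr 1
  rw [Prod.smul_mk, smul_zero]

end alg

end Vale.Agent.P011.H500.Rl
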