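import Vale.Agent.P011.H500.Rl.Nu
import Vale.Agent.P011.E6W.H964.Xm
import Vale.Agent.P011.E6W.H964.MatB
import Vale.Agent.P011.E6.Coord

/-!
The Cayley transforms of the elements `y j`, where `y` is a symmetric element of the cyclic algebra.
-/

open Matrix

namespace Vale.Agent.P011.H500.Rl

open Vale.Agent.P011.MPQ
open Vale.Agent.P011.D4 Vale.Agent.P011.D4.Oct Vale.Agent.P011.E6
open Vale.Agent.P011.E6O
open Vale.Agent.P011.E6I (MQ toMQ tm tm_mul tm_one)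
open Vale.Agent.P011.E6W.H964 (Xm XU Xm_mul Xm_one inv_comm' Sy Gm inD_Xm isUn_Xm)

section alg

variable {K : Type} [Field K] {y : Matrix (Fin 3) (Fin 3) K} {c : K}

/-- The matrix `1 - c y²`. -/
def Dl (y : Matrix (Fin 3) (Fin 3) K) (c : K) : Matrix (Fin 3) (Fin 3) K := 1 - c • (y * y)

/-- The first component of the Cayley transform. -/
noncomputable def xc (y : Matrix (Fin 3) (Fin 3) K) (c : K) : Matrix (Fin 3) (Fin 3) K :=
  (2 : K) • (Dl y c)⁻¹ - 1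

/-- The second component of the Cayley transform. -/
noncomputable def yc (y : Matrix (Fin 3) (Fin 3) K) (c : K) : Matrix (Fin 3) (Fin 3) K :=
  (2 : K) • (y * (Dl y c)⁻¹)

theorem Dl_comm : Dl y c * y = y * Dl y c := by
  rw [Dl, Matrix.sub_mul, Matrix.mul_sub, Matrix.smul_mul, Matrix.mul_smul, Matrix.one_mul,
    Matrix.mul_one, Matrix.mul_assoc]

theorem Dli_comm (hd : (Dl y c).det ≠ 0) : (Dl y c)⁻¹ * y = y * (Dl y c)⁻¹ :=
  inv_comm' hd Dl_comm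

theorem cc_comm (hd : (Dl y c).det ≠ 0) : xc y c * yc y c = yc y c * xc y c := by
  have h : (Dl y c)⁻¹ * (y * (Dl y c)⁻¹) = y * (Dl y c)⁻¹ * (Dl y c)⁻¹ := by
    rw [← Matrix.mul_assoc, Dli_comm hd]
  rw [xc, yc]
  simp only [Matrix.sub_mul, Matrix.mul_sub, Matrix.smul_mul, Matrix.mul_smul, Matrix.one_mul,
    Matrix.mul_one, h, smul_sub]

theorem cc_one (hd : (Dl y c).det ≠ 0) : xc y c * xc y c - c • (yc y c * yc y c) = 1 := by
  have hu : IsUnit (Dl y c).det := isUnit_iff_ne_zero.2 hd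
  have e1 : y * (Dl y c)⁻¹ * (y * (Dl y c)⁻¹) = (Dl y c)⁻¹ * (y * y) * (Dl y c)⁻¹ := by
    calc y * (Dl y c)⁻¹ * (y * (Dl y c)⁻¹) = (Dl y c)⁻¹ * y * (y * (Dl y c)⁻¹) := by
          rw [Dli_comm hd]
      _ = _ := by simp only [Matrix.mul_assoc]
  have e2 : (Dl y c)⁻¹ * (1 - c • (y * y)) = 1 := Matrix.nonsing_inv_mul _ hu
  have e3 : (Dl y c)⁻¹ * (Dl y c)⁻¹ - c • ((Dl y c)⁻¹ * (y * y) * (Dl y c)⁻¹) = (Dl y c)⁻¹ := by
    have := congrArg (· * (Dl y c)⁻¹) e2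
    simp only [Matrix.mul_sub, Matrix.sub_mul, Matrix.mul_one, Matrix.one_mul, Matrix.mul_smul,
      Matrix.smul_mul] at this
    exact this
  rw [xc, yc, Matrix.smul_mul, Matrix.mul_smul, e1]
  simp only [Matrix.sub_mul, Matrix.mul_sub, Matrix.one_mul, Matrix.mul_one, Matrix.smul_mul,
    Matrix.mul_smul]
  have e4 : (4 : K) • ((Dl y c)⁻¹ * (Dl y c)⁻¹ - c • ((Dl y c)⁻¹ * (y * y) * (Dl y c)⁻¹)) =
      (4 : K) • (Dl y c)⁻¹ := by rw [e3]
  rw [smul_sub] at e4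
  refine Eq.trans (b := ((4 : K) • ((Dl y c)⁻¹ * (Dl y c)⁻¹) -
      (4 : K) • c • ((Dl y c)⁻¹ * (y * y) * (Dl y c)⁻¹)) - (4 : K) • (Dl y c)⁻¹ + 1) (by module) ?_
  rw [e4, sub_self, zero_add]

theorem xc_mul (hd : (Dl y c).det ≠ 0) : xc y c * Dl y c = 1 + c • (y * y) := by
  have hu : IsUnit (Dl y c).det := isUnit_iff_ne_zero.2 hd
  rw [xc, Matrix.sub_mul, Matrix.smul_mul, Matrix.nonsing_inv_mul _ hu, Matrix.one_mul, Dl]
  module

theorem yc_mul (hd : (Dl y c).det ≠ 0) : yc y c * Dl y c = (2 : K) • y := by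
  have hu : IsUnit (Dl y c).det := isUnit_iff_ne_zero.2 hd
  rw [yc, Matrix.smul_mul, Matrix.mul_assoc, Matrix.nonsing_inv_mul _ hu, Matrix.mul_one]

end alg

section nu

variable {K : Type} [Field K] {a b : Kˣ} {y : Matrix (Fin 3) (Fin 3) K}

theorem nu_Xm_neg (h2 : (2 : K) ≠ 0) (x y : Matrix (Fin 3) (Fin 3) K) :
    nu (Xm a b x (-y)) = nu (Xm a b x y) := by
  have h : (Matrix.diagonal fun _ => (⟨0, 1, 0, 0⟩ : Qt a b)) * Xm a b x y =
      Xm a b x (-y) * Matrix.diagonal fun _ => (⟨0, 1, 0, 0⟩ : Qt a b) := by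
    apply Matrix.ext
    intro i j
    rw [Matrix.diagonal_mul, Matrix.mul_diagonal]
    apply QuaternionAlgebra.ext <;> simp [Xm]
  have h1 := congrArg nu h
  rw [nu_mulG h2, nu_mulG h2, nu_diag] at h1
  have h0 : nrd (⟨0, 1, 0, 0⟩ : Qt a b) ≠ 0 := by
    have e : nrd (⟨0, 1, 0, 0⟩ : Qt a b) = -(a : K) := by simp [nrd]
    rw [e]
    exact neg_ne_zero.2 a.ne_zero
  have h3 : nrd (⟨0, 1, 0, 0⟩ : Qt a b) * nrd (⟨0, 1, 0, 0⟩ : Qt a b) *
      nrd (⟨0, 1, 0, 0⟩ : Qt a b) ≠ 0 := mul_ne_zero (mul_ne_zero h0 h0) h0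
  rw [mul_comm] at h1
  exact (mul_right_cancel₀ h3 h1).symm

theorem nu_cay (h2 : (2 : K) ≠ 0) (hd : (Dl y (b : K)).det ≠ 0) :
    nu (Xm a b (xc y b) (yc y b)) = 1 := by
  have hu : IsUnit (Dl y (b : K)).det := isUnit_iff_ne_zero.2 hd
  have e1 : Xm a b (xc y b) (yc y b) * Xm a b (Dl y b) 0 = Xm a b 1 y * Xm a b 1 y := by
    rw [Xm_mul, Xm_mul, xc_mul hd, yc_mul hd]
    simp only [Matrix.mul_zero, Matrix.mul_one, Matrix.one_mul, smul_zero, add_zero, zero_add]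
    rw [two_smul]
  have e2 : Xm a b (Dl y b) 0 = Xm a b 1 y * Xm a b 1 (-y) := by
    rw [Xm_mul, Dl]
    simp only [Matrix.mul_neg, Matrix.mul_one, Matrix.one_mul, neg_add_cancel, smul_neg]
    rw [sub_eq_add_neg]
  have e3 : Xm a b (Dl y b) 0 * Xm a b (Dl y b)⁻¹ 0 = 1 := by
    rw [Xm_mul]
    simp only [Matrix.mul_zero, Matrix.zero_mul, smul_zero, add_zero]
    rw [Matrix.mul_nonsing_inv _ hu, Xm_one]
  have f1 := congrArg nu e1
  have f2 := congrArg nu e2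
  have f3 := congrArg nu e3
  rw [nu_mulG h2, nu_mulG h2] at f1
  rw [nu_mulG h2, nu_Xm_neg h2] at f2
  rw [nu_mulG h2, nu_one] at f3
  rw [← f2] at f1
  have h0 : nu (Xm a b (Dl y b) 0) ≠ 0 := left_ne_zero_of_mul_eq_one f3
  exact mul_right_cancel₀ h0 (f1.trans (one_mul _).symm)

end nu

section E

variable {k E : Type} [Field k] [Field E] [Algebra k E] {ρ σ : E ≃ₐ[k] E} {lam : Eˣ}
  {g : Fin 3 → Eˣ} {a b c : kˣ} {x y : Matrix (Fin 3) (Fin 3) E}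

theorem map_mulE (m n : Matrix (Fin 3) (Fin 3) E) : (m * n).map σ = m.map σ * n.map σ :=
  Matrix.map_mul (f := (σ : E →+* E))

theorem map_addE (m n : Matrix (Fin 3) (Fin 3) E) : (m + n).map σ = m.map σ + n.map σ :=
  Matrix.map_add _ (map_add σ) _ _

theorem map_subE (m n : Matrix (Fin 3) (Fin 3) E) : (m - n).map σ = m.map σ - n.map σ :=
  Matrix.map_sub _ (map_sub σ) _ _

theorem map_smulE (t : E) (m : Matrix (Fin 3) (Fin 3) E) : (t • m).map σ = σ t • m.map σ := by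
  ext i j
  simp

theorem map_oneE : (1 : Matrix (Fin 3) (Fin 3) E).map σ = 1 :=
  Matrix.map_one _ (map_zero σ) (map_one σ)

theorem Sy_one : Sy σ g 1 := by
  rw [Sy, map_oneE, Matrix.transpose_one, Matrix.one_mul, Matrix.mul_one]

theorem Sy_mul (hm : Sy σ g x) (hn : Sy σ g y) (h : x * y = y * x) : Sy σ g (x * y) := by
  have hm' : (x.map σ)ᵀ * Gm g = Gm g * x := hm
  have hn' : (y.map σ)ᵀ * Gm g = Gm g * y := hn
  rw [Sy, map_mulE, Matrix.transpose_mul, Matrix.mul_assoc, hm', ← Matrix.mul_assoc, hn',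
    Matrix.mul_assoc, h]

theorem Sy_sub (hm : Sy σ g x) (hn : Sy σ g y) : Sy σ g (x - y) := by
  have hm' : (x.map σ)ᵀ * Gm g = Gm g * x := hm
  have hn' : (y.map σ)ᵀ * Gm g = Gm g * y := hn
  rw [Sy, map_subE, Matrix.transpose_sub, Matrix.sub_mul, hm', hn', Matrix.mul_sub]

theorem Sy_smul {t : E} (ht : σ t = t) (hm : Sy σ g x) : Sy σ g (t • x) := by
  have hm' : (x.map σ)ᵀ * Gm g = Gm g * x := hm
  rw [Sy, map_smulE, ht, Matrix.transpose_smul, Matrix.smul_mul, hm', Matrix.mul_smul]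

theorem Sy_inv (hd : x.det ≠ 0) (hm : Sy σ g x) : Sy σ g x⁻¹ := by
  have hm' : (x.map σ)ᵀ * Gm g = Gm g * x := hm
  have hu : IsUnit x.det := isUnit_iff_ne_zero.2 hd
  have h1 : ((x⁻¹).map σ)ᵀ * (x.map σ)ᵀ = 1 := by
    rw [← Matrix.transpose_mul, ← map_mulE, Matrix.mul_nonsing_inv _ hu, map_oneE,
      Matrix.transpose_one]
  rw [Sy]
  calc ((x⁻¹).map σ)ᵀ * Gm g = ((x⁻¹).map σ)ᵀ * (Gm g * x) * x⁻¹ := by
        rw [Matrix.mul_assoc, Matrix.mul_assoc, Matrix.mul_nonsing_inv _ hu, Matrix.mul_one]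
    _ = Gm g * x⁻¹ := by
        rw [← hm', ← Matrix.mul_assoc, h1, Matrix.one_mul]

theorem inD0_one : InD0 ρ lam (1 : Matrix (Fin 3) (Fin 3) E) := by
  rw [InD0, map_oneE, Matrix.one_mul, Matrix.mul_one]

theorem inD0_mul (hx : InD0 ρ lam x) (hy : InD0 ρ lam y) : InD0 ρ lam (x * y) := by
  have hx' : x * um lam = um lam * x.map ρ := hx
  have hy' : y * um lam = um lam * y.map ρ := hy
  rw [InD0, map_mulE, Matrix.mul_assoc, hy', ← Matrix.mul_assoc, hx', Matrix.mul_assoc]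

theorem inD0_add (hx : InD0 ρ lam x) (hy : InD0 ρ lam y) : InD0 ρ lam (x + y) := by
  have hx' : x * um lam = um lam * x.map ρ := hx
  have hy' : y * um lam = um lam * y.map ρ := hy
  rw [InD0, map_addE, Matrix.add_mul, hx', hy', Matrix.mul_add]

theorem inD0_sub (hx : InD0 ρ lam x) (hy : InD0 ρ lam y) : InD0 ρ lam (x - y) := by
  have hx' : x * um lam = um lam * x.map ρ := hx
  have hy' : y * um lam = um lam * y.map ρ := hy
  rw [InD0, map_subE, Matrix.sub_mul, hx', hy', Matrix.mul_sub]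

theorem inD0_smul {t : E} (ht : ρ t = t) (hx : InD0 ρ lam x) : InD0 ρ lam (t • x) := by
  have hx' : x * um lam = um lam * x.map ρ := hx
  rw [InD0, map_smulE, ht, Matrix.smul_mul, hx', Matrix.mul_smul]

theorem inD0_inv (hd : x.det ≠ 0) (hx : InD0 ρ lam x) : InD0 ρ lam x⁻¹ := by
  have hx' : x * um lam = um lam * x.map ρ := hx
  have hu : IsUnit x.det := isUnit_iff_ne_zero.2 hd
  have h1 : x.map ρ * (x⁻¹).map ρ = 1 := by
    rw [← map_mulE, Matrix.mul_nonsing_inv _ hu, map_oneE]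
  rw [InD0]
  calc x⁻¹ * um lam = x⁻¹ * (um lam * (x.map ρ * (x⁻¹).map ρ)) := by rw [h1, Matrix.mul_one]
    _ = x⁻¹ * (x * um lam) * (x⁻¹).map ρ := by rw [hx']; simp only [Matrix.mul_assoc]
    _ = um lam * (x⁻¹).map ρ := by
        rw [← Matrix.mul_assoc, Matrix.nonsing_inv_mul _ hu, Matrix.one_mul]

theorem inD0_Dl {t : E} (ht : ρ t = t) (hy : InD0 ρ lam y) : InD0 ρ lam (Dl y t) :=
  inD0_sub inD0_one (inD0_smul ht (inD0_mul hy hy))

theorem inD0_xc {t : E} (ht : ρ t = t) (hd : (Dl y t).det ≠ 0) (hy : InD0 ρ lam y) :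
    InD0 ρ lam (xc y t) :=
  inD0_sub (inD0_smul (map_ofNat ρ 2) (inD0_inv hd (inD0_Dl ht hy))) inD0_one

theorem inD0_yc {t : E} (ht : ρ t = t) (hd : (Dl y t).det ≠ 0) (hy : InD0 ρ lam y) :
    InD0 ρ lam (yc y t) :=
  inD0_smul (map_ofNat ρ 2) (inD0_mul hy (inD0_inv hd (inD0_Dl ht hy)))

theorem Sy_Dl {t : E} (ht : σ t = t) (hy : Sy σ g y) : Sy σ g (Dl y t) :=
  Sy_sub Sy_one (Sy_smul ht (Sy_mul hy hy rfl))

theorem Sy_xc {t : E} (ht : σ t = t) (hd : (Dl y t).det ≠ 0) (hy : Sy σ g y) :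
    Sy σ g (xc y t) :=
  Sy_sub (Sy_smul (map_ofNat σ 2) (Sy_inv hd (Sy_Dl ht hy))) Sy_one

theorem Sy_yc {t : E} (ht : σ t = t) (hd : (Dl y t).det ≠ 0) (hy : Sy σ g y) :
    Sy σ g (yc y t) :=
  Sy_smul (map_ofNat σ 2) (Sy_mul hy (Sy_inv hd (Sy_Dl ht hy)) (Dli_comm hd).symm)

/-- The maps `act m 1`, for unitary matrices of norm one. -/
theorem exists_actG [NeZero (2 : E)] {m : (MQ E a b)ˣ}
    (hm : E6O.InD ρ lam (m : MQ E a b)) (hu : IsUn σ g 1 (m : MQ E a b))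
    (hn : nu (m : MQ E a b) = 1) :
    ∃ φ ∈ GO ρ σ lam g a b c, ∀ x, φ x = Alb.act m 1 x := by
  refine ⟨H64.actL two_ne_zero m 1, ⟨fun x => ?_, fun x => ?_, fun x y => ?_⟩, fun x => rfl⟩
  · rw [H64.actL_apply, Units.val_one, cub_actG two_ne_zero m (by rw [nrd_one, hn]), hn,
      one_mul]
  · rw [H64.actL_apply, H64.actL_apply, Units.val_one]
    exact (ph_act hm (κ := 1) (qmap_one ρ) x).symm
  · rw [H64.actL_apply, H64.actL_apply, Units.val_one]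
    have h := her_act (σ := σ) (g := g) (μ := 1) one_ne_zero hu (κ := 1)
      (by rw [qmap_one, star_one, one_mul, one_pow]; rfl) x y
    rw [h, one_pow, one_mul]

/-- The Cayley transform of `y j`. -/
noncomputable def CU (a b : Eˣ) (y : Matrix (Fin 3) (Fin 3) E) (hd : (Dl y (b : E)).det ≠ 0) :
    (Matrix (Fin 3) (Fin 3) (Qt a b))ˣ :=
  XU a b (xc y b) (yc y b) (cc_comm hd) (cc_one hd)

/-- The Cayley transforms belong to the group. -/
theorem exists_cay [NeZero (2 : E)] (hy : InD0 ρ lam y) (hs : Sy σ g y)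
    (hd : (Dl y ((up E b : Eˣ) : E)).det ≠ 0) :
    ∃ φ ∈ GO ρ σ lam g a b c, ∀ x, φ x = Alb.act (CU (up E a) (up E b) y hd) 1 x := by
  have hρ : ρ ((up E b : Eˣ) : E) = (up E b : Eˣ) := ρ.commutes _
  have hσ : σ ((up E b : Eˣ) : E) = (up E b : Eˣ) := σ.commutes _
  refine exists_actG (m := CU (up E a) (up E b) y hd) ?_ ?_ ?_
  · exact inD_Xm (inD0_xc hρ hd hy) (inD0_yc hρ hd hy)
  · exact isUn_Xm (Sy_xc hσ hd hs) (Sy_yc hσ hd hs) (cc_comm hd) (cc_one hd)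
  · exact nu_cay two_ne_zero hd

end E

end Vale.Agent.P011.H500.Rl
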