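import Vale.Agent.P011.H500.Rl.Loc
import Vale.Agent.P011.H261.Rl.Asm
import Vale.Agent.P011.H706.Rl.Appr
import Vale.Agent.P011.E6W.H964.N0

/-!
The curves of Cayley transforms in the group and their tangent vectors.
-/

open Matrix Filter Topology NormedSpace

namespace Vale.Agent.P011.H500.Rl

open Vale.Agent.P011.MPQ
open Vale.Agent.P011.D4 Vale.Agent.P011.D4.Oct Vale.Agent.P011.E6
open Vale.Agent.P011.E6W.H964 (Xm Sy conj_trip)
open Vale.Agent.P011.E6O (InD0 GO)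
open Vale.Agent.P011.H261.Rl
open scoped ComplexConjugate

variable {k E : Type} [Field k] [NumberField k] [Field E] [NumberField E] [Algebra k E]
  {ρ σ : E ≃ₐ[k] E} {lam : Eˣ} {g : Fin 3 → Eˣ} {a b c a' b' c' : kˣ} {i j l : Oct a b c}

/-- The linear bijections of the group as permutations. -/
theorem mem_G3 {f : AlbL E a b c ≃ₗ[E] AlbL E a b c} (hf : f ∈ GO ρ σ lam g a b c) :
    f.toEquiv ∈ G3 ρ σ lam g a b c :=
  ⟨⟨⟨map_add f, map_smul f, hf.1⟩, hf.2.2⟩, ⟨⟨map_add f, map_smul f, hf.1⟩, hf.2.1⟩⟩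

variable (ht : Trip a' b' c' i j l) {x : Matrix (Fin 3) (Fin 3) E}

/-- The Cayley transforms in the coordinates of a triple. -/
theorem exists_fam (hx : InD0 ρ lam x) (hs : Sy σ g x) (t : k) :
    ∃ f : G3 ρ σ lam g a b c,
      ∀ (hd : (Dl ((algebraMap k E t) • x) ((up E b' : Eˣ) : E)).det ≠ 0) (u : AlbL E a' b' c'),
        f.1 (tripA E ht u) =
          tripA E ht (Alb.act (CU (up E a') (up E b') ((algebraMap k E t) • x) hd) 1 u) := by
  by_cases hd : (Dl ((algebraMap k E t) • x) ((up E b' : Eˣ) : E)).det ≠ 0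
  · obtain ⟨φ, hφ, h1⟩ := exists_cay (a := a') (c := c')
      (inD0_smul (ρ.commutes t) hx) (Sy_smul (σ.commutes t) hs) hd
    refine ⟨⟨_, mem_G3 (conj_trip ht hφ)⟩, fun hd' u => ?_⟩
    change tripA E ht (φ ((tripA E ht).symm (tripA E ht u))) = _
    rw [LinearEquiv.symm_apply_apply, h1]
  · exact ⟨1, fun hd' => absurd hd' hd⟩

/-- The tangent vector of the curve at an embedding. -/
theorem tendsto_lc (φ : E →+* ℂ) {t : ℕ → k} {z : ℂ}
    (hz : Tendsto (fun n : ℕ => (n : ℂ) * φ (algebraMap k E (t n))) atTop (𝓝 z))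
    {f : ℕ → G3 ρ σ lam g a b c}
    (hf : ∀ n, ∀ (hd : (Dl ((algebraMap k E (t n)) • x) ((up E b' : Eˣ) : E)).det ≠ 0)
      (u : AlbL E a' b' c'), (f n).1 (tripA E ht u) =
        tripA E ht (Alb.act (CU (up E a') (up E b') ((algebraMap k E (t n)) • x) hd) 1 u)) :
    Tendsto (fun n : ℕ => (n : ℂ) • (lc φ (f n).1 - 1)) atTop
      (𝓝 (DT ht φ ((2 * z) • x.map φ))) := by
  refine tendsto_of_span (span_ev φ {v | ∃ u, v = ev φ (tripA E ht u)}
    fun y => ⟨(tripA E ht).symm y, by rw [LinearEquiv.apply_symm_apply]⟩) ?_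
  rintro v ⟨u, rfl⟩
  have h1 := tendsto_lin (Tf ht φ) (tendsto_act_cay (a := uw φ (up E a')) (b := uw φ (up E b'))
    (c := uw φ (up E c')) (M := x.map φ) hz (ev φ u))
  rw [DT_ev]
  refine Tendsto.congr' ?_ h1
  filter_upwards [det_Dl_ne (M := x.map φ) (β := ((uw φ (up E b') : ℂˣ) : ℂ)) hz] with n hn
  have hd : (Dl ((algebraMap k E (t n)) • x) ((up E b' : Eˣ) : E)).det ≠ 0 := by
    intro h
    apply hn
    have e := congrArg φ h
    rw [← det_mapF, map_Dl, map_smulF, map_zero] at e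
    exact e
  have e1 : lc φ (f n).1 (ev φ (tripA E ht u)) = ev φ ((f n).1 (tripA E ht u)) :=
    loc_ev φ (G3.add (f n)) (G3.smul (f n)) _
  have e2 : ((n : ℂ) • (lc φ (f n).1 - 1)) (ev φ (tripA E ht u)) =
      (n : ℂ) • (lc φ (f n).1 (ev φ (tripA E ht u)) - ev φ (tripA E ht u)) := rfl
  rw [e2, e1, hf n hd u, ← Tf_ev, ← Tf_ev, ev_cay, map_smulF, ← map_sub, ← map_smul]

theorem smul_RE (φ : E →+* ℂ) (t : ℝ) (X : RE φ a b c) : t • X = (t : ℂ) • X := by
  apply ContinuousLinearMap.ext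
  intro v
  change t • X v = (t : ℂ) • X v
  exact (Complex.coe_smul t (X v)).symm

end Vale.Agent.P011.H500.Rl
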