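import Vale.Agent.P011.H500.Rl.Act1
import Vale.Agent.P011.H261.Rl.Defs

/-!
The limit of the Cayley transforms.
-/

open Matrix Filter Topology

namespace Vale.Agent.P011.H500.Rl

open Vale.Agent.P011.MPQ
open Vale.Agent.P011.D4 Vale.Agent.P011.D4.Oct Vale.Agent.P011.E6
open Vale.Agent.P011.E6W.H964 (Xm)
open Vale.Agent.P011.H261.Rl

variable {a b c : ℂˣ}

theorem tendsto_inv_nat : Tendsto (fun n : ℕ => ((n : ℂ))⁻¹) atTop (𝓝 0) := by
  have h := tendsto_inv_atTop_nhds_zero_nat (𝕜 := ℝ)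
  have h2 := (Complex.continuous_ofReal.tendsto 0).comp h
  rw [Complex.ofReal_zero] at h2
  refine h2.congr fun n => ?_
  simp

/-- The limit of the action. -/
theorem tendsto_act {p : ℕ → WW ℂ} {Y : Matrix (Fin 3) (Fin 3) ℂ}
    (hp : Tendsto (fun n : ℕ => (n : ℂ) • p n) atTop (𝓝 (0, Y))) (v : Alb a b c) :
    Tendsto (fun n : ℕ => (n : ℂ) • (actM (xm a b ((1, 0) + p n))
      (xm a b (ng ((1, 0) + p n))) v - v)) atTop (𝓝 (DD Y v)) := by
  have h0 : Tendsto p atTop (𝓝 0) := by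
    have h1 := tendsto_inv_nat.smul hp
    rw [zero_smul] at h1
    refine Tendsto.congr' ?_ h1
    filter_upwards [eventually_gt_atTop 0] with n hn
    rw [smul_smul, inv_mul_cancel₀ (by exact_mod_cast hn.ne'), one_smul]
  have h1 := tendsto_lin (F1 v) hp
  have h2 := tendsto_bilin (F2 v) hp h0
  rw [map_zero] at h2
  have h3 := h1.add h2
  rw [add_zero] at h3
  refine h3.congr fun n => ?_
  rw [act_expand, add_assoc, add_sub_cancel_left, smul_add, map_smul, map_smul]
  rfl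

section cay

variable {M : Matrix (Fin 3) (Fin 3) ℂ} {t : ℕ → ℂ} {z β : ℂ}

theorem tendsto_zero_of_nat (ht : Tendsto (fun n : ℕ => (n : ℂ) * t n) atTop (𝓝 z)) :
    Tendsto t atTop (𝓝 0) := by
  have h1 := tendsto_inv_nat.mul ht
  rw [zero_mul] at h1
  refine Tendsto.congr' ?_ h1
  filter_upwards [eventually_gt_atTop 0] with n hn
  rw [← mul_assoc, inv_mul_cancel₀ (by exact_mod_cast hn.ne'), one_mul]

theorem tendsto_Dl (ht : Tendsto (fun n : ℕ => (n : ℂ) * t n) atTop (𝓝 z)) :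
    Tendsto (fun n => Dl (t n • M) β) atTop (𝓝 1) := by
  have h0 := tendsto_zero_of_nat ht
  have h1 : Tendsto (fun n => (1 : Matrix (Fin 3) (Fin 3) ℂ) - (β * (t n * t n)) • (M * M)) atTop
      (𝓝 (1 - (β * (0 * 0)) • (M * M))) :=
    tendsto_const_nhds.sub ((tendsto_const_nhds.mul (h0.mul h0)).smul tendsto_const_nhds)
  rw [zero_mul, mul_zero, zero_smul, sub_zero] at h1
  refine h1.congr fun n => ?_
  rw [Dl, Matrix.smul_mul, Matrix.mul_smul, smul_smul, smul_smul, mul_assoc]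

theorem det_Dl_ne (ht : Tendsto (fun n : ℕ => (n : ℂ) * t n) atTop (𝓝 z)) :
    ∀ᶠ n in atTop, (Dl (t n • M) β).det ≠ 0 := by
  have h1 := (Continuous.matrix_det continuous_id).continuousAt.tendsto.comp
    (tendsto_Dl (M := M) (β := β) ht)
  have h2 : (id (1 : Matrix (Fin 3) (Fin 3) ℂ)).det = 1 := Matrix.det_one
  rw [h2] at h1
  exact h1.eventually_ne one_ne_zero

theorem tendsto_Dli (ht : Tendsto (fun n : ℕ => (n : ℂ) * t n) atTop (𝓝 z)) :
    Tendsto (fun n => (Dl (t n • M) β)⁻¹) atTop (𝓝 1) := by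
  have h1 : ContinuousAt Inv.inv (1 : Matrix (Fin 3) (Fin 3) ℂ) := by
    apply continuousAt_matrix_inv
    rw [Matrix.det_one]
    have := continuousAt_inv₀ (one_ne_zero (α := ℂ))
    refine this.congr ?_
    exact Eventually.of_forall fun x => (Ring.inverse_eq_inv x).symm
  have h2 := h1.tendsto.comp (tendsto_Dl (M := M) (β := β) ht)
  rwa [inv_one] at h2

/-- The limit of the Cayley transforms. -/
theorem tendsto_cay (ht : Tendsto (fun n : ℕ => (n : ℂ) * t n) atTop (𝓝 z)) :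
    Tendsto (fun n : ℕ => (n : ℂ) • ((xc (t n • M) β - 1, yc (t n • M) β) : WW ℂ)) atTop
      (𝓝 (0, (2 * z) • M)) := by
  have h0 := tendsto_zero_of_nat ht
  have hi := tendsto_Dli (M := M) (β := β) ht
  have key : Tendsto (fun n : ℕ => (n : ℂ) • (xc (t n • M) β - 1)) atTop (𝓝 0) ∧
      Tendsto (fun n : ℕ => (n : ℂ) • yc (t n • M) β) atTop (𝓝 ((2 * z) • M)) := by
    refine ⟨?_, ?_⟩
    · have h1 : Tendsto (fun n : ℕ => (2 : ℂ) • ((Dl (t n • M) β)⁻¹ *
          ((β * (((n : ℂ) * t n) * t n)) • (M * M)))) atTop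
          (𝓝 ((2 : ℂ) • ((1 : Matrix (Fin 3) (Fin 3) ℂ) * ((β * (z * 0)) • (M * M))))) :=
        (hi.mul ((tendsto_const_nhds.mul (ht.mul h0)).smul tendsto_const_nhds)).const_smul _
      rw [mul_zero, mul_zero, zero_smul, mul_zero, smul_zero] at h1
      refine Tendsto.congr' ?_ h1
      filter_upwards [det_Dl_ne (M := M) (β := β) ht] with n hn
      have hu : IsUnit (Dl (t n • M) β).det := isUnit_iff_ne_zero.2 hn
      have e1 : (β * (((n : ℂ) * t n) * t n)) • (M * M) = (n : ℂ) • (1 - Dl (t n • M) β) := by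
        rw [Dl, Matrix.smul_mul, Matrix.mul_smul, smul_smul, smul_smul, sub_sub_cancel, smul_smul]
        congr 1
        ring
      rw [e1, xc, Matrix.mul_smul, Matrix.mul_sub, Matrix.nonsing_inv_mul _ hu, Matrix.mul_one]
      module
    · have h1 : Tendsto (fun n : ℕ => (2 : ℂ) • ((((n : ℂ) * t n) • M) * (Dl (t n • M) β)⁻¹)) atTop
          (𝓝 ((2 : ℂ) • ((z • M) * (1 : Matrix (Fin 3) (Fin 3) ℂ)))) :=
        ((ht.smul tendsto_const_nhds).mul hi).const_smul _
      rw [mul_one, smul_smul] at h1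
      refine h1.congr fun n => ?_
      rw [yc, Matrix.smul_mul, Matrix.smul_mul]
      module
  exact key.1.prodMk_nhds key.2

/-- The limit of the action of the Cayley transforms. -/
theorem tendsto_act_cay (ht : Tendsto (fun n : ℕ => (n : ℂ) * t n) atTop (𝓝 z))
    (v : Alb a b c) :
    Tendsto (fun n : ℕ => (n : ℂ) • (actM (Xm a b (xc (t n • M) b) (yc (t n • M) b))
      (Xm a b (xc (t n • M) b) (-yc (t n • M) b)) v - v)) atTop (𝓝 (DD ((2 * z) • M) v)) := by
  refine (tendsto_act (tendsto_cay (M := M) (β := (b : ℂ)) ht) v).congr fun n => ?_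
  have e : ((1, 0) + (xc (t n • M) (b : ℂ) - 1, yc (t n • M) (b : ℂ)) : WW ℂ) =
      (xc (t n • M) (b : ℂ), yc (t n • M) (b : ℂ)) := by
    rw [Prod.mk_add_mk, add_sub_cancel, zero_add]
  rw [e]
  rfl

end cay

end Vale.Agent.P011.H500.Rl
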