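import Vale.Agent.P011.D4.Oct
import Vale.Agent.P011.D4.Maps

/-!
The pure basis vectors of an octonion algebra are the second members of basic triples.
-/

namespace Vale.Agent.P011.H500.Rl

open Vale.Agent.P011.MPQ Vale.Agent.P011.D4 Vale.Agent.P011.D4.Oct
open Vale.Agent.P011.D4.H24 (ob)

variable {F : Type} [Field F] {a b c : Fˣ}

theorem trip1 : Trip b a c (gj : Oct a b c) gi gl := by
  refine ⟨?_, ?_, ?_, ?_, ?_, ?_, ?_, ?_, ?_, ?_⟩
  all_goals first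
    | (apply ext8 <;> simp [gi, gj, gl] <;> ring; done)
    | (simp [dot, gi, gj, gl] <;> ring; done)
    | (apply ext8 <;> simp [gi, gj, gl]; done)
    | (simp [dot, gi, gj, gl]; done)

theorem trip2 : Trip a b c (gi : Oct a b c) gj gl := by
  refine ⟨?_, ?_, ?_, ?_, ?_, ?_, ?_, ?_, ?_, ?_⟩
  all_goals first
    | (apply ext8 <;> simp [gi, gj, gl] <;> ring; done)
    | (simp [dot, gi, gj, gl] <;> ring; done)
    | (apply ext8 <;> simp [gi, gj, gl]; done)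
    | (simp [dot, gi, gj, gl]; done)

theorem trip3 : Trip a (-(a * b)) c (gi : Oct a b c) ⟨⟨0, 0, 0, 1⟩, 0⟩ gl := by
  refine ⟨?_, ?_, ?_, ?_, ?_, ?_, ?_, ?_, ?_, ?_⟩
  all_goals first
    | (apply ext8 <;> simp [gi, gj, gl] <;> ring; done)
    | (simp [dot, gi, gj, gl] <;> ring; done)
    | (apply ext8 <;> simp [gi, gj, gl]; done)
    | (simp [dot, gi, gj, gl]; done)

theorem trip4 : Trip a c b (gi : Oct a b c) gl gj := by
  refine ⟨?_, ?_, ?_, ?_, ?_, ?_, ?_, ?_, ?_, ?_⟩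
  all_goals first
    | (apply ext8 <;> simp [gi, gj, gl] <;> ring; done)
    | (simp [dot, gi, gj, gl] <;> ring; done)
    | (apply ext8 <;> simp [gi, gj, gl]; done)
    | (simp [dot, gi, gj, gl]; done)

theorem trip5 : Trip a (-(a * c)) b (gi : Oct a b c) ⟨0, ⟨0, 1, 0, 0⟩⟩ gj := by
  refine ⟨?_, ?_, ?_, ?_, ?_, ?_, ?_, ?_, ?_, ?_⟩
  all_goals first
    | (apply ext8 <;> simp [gi, gj, gl] <;> ring; done)
    | (simp [dot, gi, gj, gl] <;> ring; done)
    | (apply ext8 <;> simp [gi, gj, gl]; done)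
    | (simp [dot, gi, gj, gl]; done)

theorem trip6 : Trip b (-(b * c)) a (gj : Oct a b c) ⟨0, ⟨0, 0, 1, 0⟩⟩ gi := by
  refine ⟨?_, ?_, ?_, ?_, ?_, ?_, ?_, ?_, ?_, ?_⟩
  all_goals first
    | (apply ext8 <;> simp [gi, gj, gl] <;> ring; done)
    | (simp [dot, gi, gj, gl] <;> ring; done)
    | (apply ext8 <;> simp [gi, gj, gl]; done)
    | (simp [dot, gi, gj, gl]; done)

theorem trip7 : Trip (-(a * b)) (a * b * c) a (⟨⟨0, 0, 0, 1⟩, 0⟩ : Oct a b c)
    ⟨0, ⟨0, 0, 0, 1⟩⟩ gi := by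
  refine ⟨?_, ?_, ?_, ?_, ?_, ?_, ?_, ?_, ?_, ?_⟩
  all_goals first
    | (apply ext8 <;> simp [gi, gj, gl] <;> ring; done)
    | (simp [dot, gi, gj, gl] <;> ring; done)
    | (apply ext8 <;> simp [gi, gj, gl]; done)
    | (simp [dot, gi, gj, gl]; done)

/-- The pure basis vectors are the second members of basic triples. -/
theorem exists_trip_ob (m : Fin 8) (hm : m ≠ 0) : ∃ (a' b' c' : Fˣ) (i j l : Oct a b c),
    Trip a' b' c' i j l ∧ j = ob m := by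
  fin_cases m
  · exact absurd rfl hm
  · exact ⟨_, _, _, _, _, _, trip1, rfl⟩
  · exact ⟨_, _, _, _, _, _, trip2, rfl⟩
  · exact ⟨_, _, _, _, _, _, trip3, rfl⟩
  · exact ⟨_, _, _, _, _, _, trip4, by rw [gl]; rfl⟩
  · exact ⟨_, _, _, _, _, _, trip5, rfl⟩
  · exact ⟨_, _, _, _, _, _, trip6, rfl⟩
  · exact ⟨_, _, _, _, _, _, trip7, rfl⟩

end Vale.Agent.P011.H500.Rl
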