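import Vale.Agent.P011.H500.Rl.Sgl
import Vale.Agent.P011.H500.Rl.LimX
import Vale.Agent.P011.H500.Rl.Trp
import Vale.Agent.P011.H450.R.Ev
import Vale.Agent.P011.H261.Rl.Spec

/-!
The Cayley transforms at an embedding.
-/

open Matrix Filter Topology

namespace Vale.Agent.P011.H500.Rl

open Vale.Agent.P011.MPQ
open Vale.Agent.P011.D4 Vale.Agent.P011.D4.Oct Vale.Agent.P011.E6
open Vale.Agent.P011.E6W.H964 (Xm)
open Vale.Agent.P011.H261.Rl
open Vale.Agent.P011.H450.R (evq_mul evq_star evq_one evo_mul evo_one bil_evo)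

section ev

variable {F : Type} [Field F] (φ : F →+* ℂ) {a b c : Fˣ}

/-- The extension of scalars, as a ring homomorphism. -/
def evH (a b : Fˣ) : Qt a b →+* Qt (uw φ a) (uw φ b) where
  toFun := evq φ
  map_one' := evq_one φ
  map_mul' := evq_mul φ
  map_zero' := evq_zero φ
  map_add' := evq_add φ

theorem map_evq_mul (A B : Matrix (Fin 3) (Fin 3) (Qt a b)) :
    (A * B).map (evq φ) = A.map (evq φ) * B.map (evq φ) :=
  Matrix.map_mul (f := evH φ a b)

theorem map_evq_star (A : Matrix (Fin 3) (Fin 3) (Qt a b)) :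
    Aᴴ.map (evq φ) = (A.map (evq φ))ᴴ := by
  apply Matrix.ext
  intro i j
  exact evq_star φ (A j i)

theorem evq_alg (t : F) : evq φ (algebraMap F (Qt a b) t) =
    algebraMap ℂ (Qt (uw φ a) (uw φ b)) (φ t) := by
  apply QuaternionAlgebra.ext
  · rfl
  · exact map_zero φ
  · exact map_zero φ
  · exact map_zero φ

theorem mat_ev (x : Alb a b c) : Alb.mat (ev φ x) = (Alb.mat x).map (evq φ) := by
  apply Matrix.ext
  intro i j
  fin_cases i <;> fin_cases j
  · exact (evq_alg φ _).symm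
  · rfl
  · exact (evq_star φ _).symm
  · exact (evq_star φ _).symm
  · exact (evq_alg φ _).symm
  · rfl
  · rfl
  · exact (evq_star φ _).symm
  · exact (evq_alg φ _).symm

theorem vec_ev (x : Alb a b c) : Alb.vec (ev φ x) = fun i => evq φ (Alb.vec x i) := by
  funext i
  fin_cases i <;> rfl

theorem vecMul_ev (v : Fin 3 → Qt a b) (A : Matrix (Fin 3) (Fin 3) (Qt a b)) (i : Fin 3) :
    Matrix.vecMul (fun i => evq φ (v i)) (A.map (evq φ)) i = evq φ (Matrix.vecMul v A i) := by
  simp only [Matrix.vecMul, dotProduct, Fin.sum_univ_three, Matrix.map_apply, evq_add, evq_mul]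

theorem ev_actM (m m' : Matrix (Fin 3) (Fin 3) (Qt a b)) (v : Alb a b c) :
    ev φ (actM m m' v) = actM (m.map (evq φ)) (m'.map (evq φ)) (ev φ v) := by
  rw [actM, actM, mat_ev, vec_ev, ← map_evq_star, ← map_evq_mul, ← map_evq_mul]
  have h : Matrix.vecMul (fun i => evq φ (Alb.vec v i)) (m'.map (evq φ)) =
      fun i => evq φ (Matrix.vecMul (Alb.vec v) m' i) := funext fun i => vecMul_ev φ _ _ i
  rw [h]
  rfl

theorem Xm_evq (x y : Matrix (Fin 3) (Fin 3) F) :
    (Xm a b x y).map (evq φ) = Xm (uw φ a) (uw φ b) (x.map φ) (y.map φ) := by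
  apply Matrix.ext
  intro i j
  apply QuaternionAlgebra.ext
  · rfl
  · exact map_zero φ
  · rfl
  · exact map_zero φ

theorem map_mulF (m n : Matrix (Fin 3) (Fin 3) F) : (m * n).map φ = m.map φ * n.map φ :=
  Matrix.map_mul (f := φ)

theorem map_subF (m n : Matrix (Fin 3) (Fin 3) F) : (m - n).map φ = m.map φ - n.map φ :=
  Matrix.map_sub _ (map_sub φ) _ _

theorem map_smulF (t : F) (m : Matrix (Fin 3) (Fin 3) F) : (t • m).map φ = φ t • m.map φ := by
  ext i j
  simp

theorem map_oneF : (1 : Matrix (Fin 3) (Fin 3) F).map φ = 1 :=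
  Matrix.map_one _ (map_zero φ) (map_one φ)

theorem map_negF (m : Matrix (Fin 3) (Fin 3) F) : (-m).map φ = -m.map φ := by
  ext i j
  simp

theorem det_mapF (m : Matrix (Fin 3) (Fin 3) F) : (m.map φ).det = φ m.det :=
  (RingHom.map_det φ m).symm

theorem map_invF {m : Matrix (Fin 3) (Fin 3) F} (hd : m.det ≠ 0) :
    (m⁻¹).map φ = (m.map φ)⁻¹ := by
  have hu : IsUnit m.det := isUnit_iff_ne_zero.2 hd
  symm
  apply Matrix.inv_eq_right_inv
  rw [← map_mulF, Matrix.mul_nonsing_inv _ hu, map_oneF]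

theorem map_Dl (y : Matrix (Fin 3) (Fin 3) F) (t : F) : (Dl y t).map φ = Dl (y.map φ) (φ t) := by
  rw [Dl, Dl, map_subF, map_oneF, map_smulF, map_mulF]

theorem map_xc {y : Matrix (Fin 3) (Fin 3) F} {t : F} (hd : (Dl y t).det ≠ 0) :
    (xc y t).map φ = xc (y.map φ) (φ t) := by
  rw [xc, xc, map_subF, map_oneF, map_smulF, map_invF φ hd, map_Dl, map_ofNat]

theorem map_yc {y : Matrix (Fin 3) (Fin 3) F} {t : F} (hd : (Dl y t).det ≠ 0) :
    (yc y t).map φ = yc (y.map φ) (φ t) := by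
  rw [yc, yc, map_smulF, map_mulF, map_invF φ hd, map_Dl, map_ofNat]

theorem ev_cay {y : Matrix (Fin 3) (Fin 3) F} (hd : (Dl y (b : F)).det ≠ 0) (v : Alb a b c) :
    ev φ (Alb.act (CU a b y hd) 1 v) =
      actM (Xm (uw φ a) (uw φ b) (xc (y.map φ) (uw φ b)) (yc (y.map φ) (uw φ b)))
        (Xm (uw φ a) (uw φ b) (xc (y.map φ) (uw φ b)) (-yc (y.map φ) (uw φ b))) (ev φ v) := by
  have h1 : ((CU a b y hd : (Matrix (Fin 3) (Fin 3) (Qt a b))ˣ) : Matrix (Fin 3) (Fin 3) (Qt a b)) =
      Xm a b (xc y b) (yc y b) := rfl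
  have h2 : (((CU a b y hd)⁻¹ : (Matrix (Fin 3) (Fin 3) (Qt a b))ˣ) :
      Matrix (Fin 3) (Fin 3) (Qt a b)) = Xm a b (xc y b) (-yc y b) := rfl
  rw [act_eq, ev_actM, h1, h2, Xm_evq, Xm_evq, map_negF, map_xc φ hd, map_yc φ hd]
  rfl

/-- The images of the vectors over the ground field span. -/
theorem span_ev (S : Set (Alb (uw φ a) (uw φ b) (uw φ c))) (hS : ∀ x : Alb a b c, ev φ x ∈ S) :
    Submodule.span ℂ S = ⊤ := by
  have h := ext_ev φ (a := a) (b := b) (c := c) (f := (Submodule.span ℂ S).mkQ) (g := 0)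
    (fun x => by
      rw [LinearMap.zero_apply, Submodule.mkQ_apply, Submodule.Quotient.mk_eq_zero]
      exact Submodule.subset_span (hS x))
  rw [← Submodule.ker_mkQ (Submodule.span ℂ S), h, LinearMap.ker_zero]

theorem evq_neg (x : Qt a b) : evq φ (-x) = -evq φ x := by
  ext <;> simp

theorem evo_star (x : Oct a b c) : evo φ (star x) = star (evo φ x) := by
  ext1
  · exact evq_star φ _
  · exact evq_neg φ _

theorem evo_zero : evo φ (0 : Oct a b c) = 0 := by
  ext1
  · exact evq_zero φ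
  · exact evq_zero φ

theorem ev_P1 (q : Oct a b c) (x : Alb a b c) : P1 (evo φ q) (ev φ x) = ev φ (P1 q x) := by
  ext1
  · exact (map_zero φ).symm
  · exact bil_evo φ q x.x1
  · exact (map_zero φ).symm
  · exact (evo_smul φ x.d3 q).symm
  · exact (evo_zero φ).symm
  · exact ((evo_star φ _).trans (congrArg star (evo_mul φ q x.x2))).symm

theorem ev_P2 (q : Oct a b c) (x : Alb a b c) : P2 (evo φ q) (ev φ x) = ev φ (P2 q x) := by
  ext1
  · exact (map_zero φ).symm
  · exact (map_zero φ).symm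
  · exact bil_evo φ q x.x2
  · exact ((evo_star φ _).trans (congrArg star (evo_mul φ q x.x3))).symm
  · exact (evo_smul φ x.d1 q).symm
  · exact (evo_zero φ).symm

theorem ev_P3 (q : Oct a b c) (x : Alb a b c) : P3 (evo φ q) (ev φ x) = ev φ (P3 q x) := by
  ext1
  · exact bil_evo φ q x.x3
  · exact (map_zero φ).symm
  · exact (map_zero φ).symm
  · exact (evo_zero φ).symm
  · exact ((evo_star φ _).trans (congrArg star (evo_mul φ q x.x1))).symm
  · exact (evo_smul φ x.d2 q).symm

theorem ev_M1 (q : Oct a b c) (x : Alb a b c) : M1 (evo φ q) (ev φ x) = ev φ (M1 q x) := by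
  have h : bil (evo φ q) (star (evo φ x.x1)) = φ (bil q (star x.x1)) := by
    rw [← evo_star, bil_evo]
  ext1
  · exact (map_zero φ).symm
  · exact (map_zero φ).symm
  · exact h
  · exact ((evo_smul φ x.d2 (star q)).trans (congrArg (φ x.d2 • ·) (evo_star φ q))).symm
  · exact ((evo_mul φ q (star x.x3)).trans (congrArg (evo φ q * ·) (evo_star φ x.x3))).symm
  · exact (evo_zero φ).symm

theorem ev_M2 (q : Oct a b c) (x : Alb a b c) : M2 (evo φ q) (ev φ x) = ev φ (M2 q x) := by
  have h : bil (evo φ q) (star (evo φ x.x2)) = φ (bil q (star x.x2)) := by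
    rw [← evo_star, bil_evo]
  ext1
  · exact h
  · exact (map_zero φ).symm
  · exact (map_zero φ).symm
  · exact (evo_zero φ).symm
  · exact ((evo_smul φ x.d3 (star q)).trans (congrArg (φ x.d3 • ·) (evo_star φ q))).symm
  · exact ((evo_mul φ q (star x.x1)).trans (congrArg (evo φ q * ·) (evo_star φ x.x1))).symm

theorem ev_M3 (q : Oct a b c) (x : Alb a b c) : M3 (evo φ q) (ev φ x) = ev φ (M3 q x) := by
  have h : bil (evo φ q) (star (evo φ x.x3)) = φ (bil q (star x.x3)) := by
    rw [← evo_star, bil_evo]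
  ext1
  · exact (map_zero φ).symm
  · exact h
  · exact (map_zero φ).symm
  · exact ((evo_mul φ q (star x.x2)).trans (congrArg (evo φ q * ·) (evo_star φ x.x2))).symm
  · exact (evo_zero φ).symm
  · exact ((evo_smul φ x.d1 (star q)).trans (congrArg (φ x.d1 • ·) (evo_star φ q))).symm

end ev

section hom

variable {F : Type} [Field F] {a b c a' b' c' : Fˣ} {f : Oct a' b' c' ≃ₗ[F] Oct a b c}
  (hf : ∀ x y, f (x * y) = f x * f y)

include hf

theorem mapE_P1 (q : Oct a' b' c') (x : Alb a' b' c') :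
    Alb.mapE f (P1 q x) = P1 (f q) (Alb.mapE f x) := by
  ext1
  · rfl
  · exact (hom_bil hf q x.x1).symm
  · rfl
  · exact map_smul f _ _
  · exact map_zero f
  · exact (hom_star hf _).trans (congrArg star (hf _ _))

theorem mapE_P2 (q : Oct a' b' c') (x : Alb a' b' c') :
    Alb.mapE f (P2 q x) = P2 (f q) (Alb.mapE f x) := by
  ext1
  · rfl
  · rfl
  · exact (hom_bil hf q x.x2).symm
  · exact (hom_star hf _).trans (congrArg star (hf _ _))
  · exact map_smul f _ _
  · exact map_zero f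

theorem mapE_P3 (q : Oct a' b' c') (x : Alb a' b' c') :
    Alb.mapE f (P3 q x) = P3 (f q) (Alb.mapE f x) := by
  ext1
  · exact (hom_bil hf q x.x3).symm
  · rfl
  · rfl
  · exact map_zero f
  · exact (hom_star hf _).trans (congrArg star (hf _ _))
  · exact map_smul f _ _

theorem mapE_M1 (q : Oct a' b' c') (x : Alb a' b' c') :
    Alb.mapE f (M1 q x) = M1 (f q) (Alb.mapE f x) := by
  ext1
  · rfl
  · rfl
  · exact ((congrArg (bil (f q)) (hom_star hf x.x1)).symm.trans (hom_bil hf q _)).symm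
  · exact (map_smul f _ _).trans (congrArg (x.d2 • ·) (hom_star hf q))
  · exact (hf _ _).trans (congrArg (f q * ·) (hom_star hf x.x3))
  · exact map_zero f

theorem mapE_M2 (q : Oct a' b' c') (x : Alb a' b' c') :
    Alb.mapE f (M2 q x) = M2 (f q) (Alb.mapE f x) := by
  ext1
  · exact ((congrArg (bil (f q)) (hom_star hf x.x2)).symm.trans (hom_bil hf q _)).symm
  · rfl
  · rfl
  · exact map_zero f
  · exact (map_smul f _ _).trans (congrArg (x.d3 • ·) (hom_star hf q))
  · exact (hf _ _).trans (congrArg (f q * ·) (hom_star hf x.x1))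

theorem mapE_M3 (q : Oct a' b' c') (x : Alb a' b' c') :
    Alb.mapE f (M3 q x) = M3 (f q) (Alb.mapE f x) := by
  ext1
  · rfl
  · exact ((congrArg (bil (f q)) (hom_star hf x.x3)).symm.trans (hom_bil hf q _)).symm
  · rfl
  · exact (hf _ _).trans (congrArg (f q * ·) (hom_star hf x.x2))
  · exact map_zero f
  · exact (map_smul f _ _).trans (congrArg (x.d1 • ·) (hom_star hf q))

end hom

end Vale.Agent.P011.H500.Rl
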