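import Vale.Agent.P011.H500.Rl.EvX

/-!
The change of coordinates to a basic triple, at an embedding.
-/

open Matrix Filter Topology

namespace Vale.Agent.P011.H500.Rl

open Vale.Agent.P011.MPQ
open Vale.Agent.P011.D4 Vale.Agent.P011.D4.Oct Vale.Agent.P011.E6
open Vale.Agent.P011.E6W.H964 (Xm)
open Vale.Agent.P011.H261.Rl
open Vale.Agent.P011.H450.R (evq_mul evq_star evq_one evo_mul evo_one bil_evo)

section trip

variable {k E : Type} [Field k] [Field E] [Algebra k E] [NeZero (2 : E)] {a b c a' b' c' : kˣ}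
  {i j l : Oct a b c} (ht : Trip a' b' c' i j l) (φ : E →+* ℂ)

/-- The change of coordinates, at an embedding. -/
noncomputable def Tf : Alb (uw φ (up E a')) (uw φ (up E b')) (uw φ (up E c')) →ₗ[ℂ]
    Alb (uw φ (up E a)) (uw φ (up E b)) (uw φ (up E c)) := ex fun u => ev φ (tripA E ht u)

/-- The inverse change of coordinates, at an embedding. -/
noncomputable def Tb : Alb (uw φ (up E a)) (uw φ (up E b)) (uw φ (up E c)) →ₗ[ℂ]
    Alb (uw φ (up E a')) (uw φ (up E b')) (uw φ (up E c')) := ex fun u => ev φ ((tripA E ht).symm u)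

theorem Tf_ev (u : AlbL E a' b' c') : Tf ht φ (ev φ u) = ev φ (tripA E ht u) :=
  ex_ev φ (fun u => ev φ (tripA E ht u)) (fun x y => by rw [map_add, ev_add])
    (fun t x => by rw [map_smul, ev_smul]) u

theorem Tb_ev (u : AlbL E a b c) : Tb ht φ (ev φ u) = ev φ ((tripA E ht).symm u) :=
  ex_ev φ (fun u => ev φ ((tripA E ht).symm u)) (fun x y => by rw [map_add, ev_add])
    (fun t x => by rw [map_smul, ev_smul]) u

/-- The derivation attached to `M j`, for the second member `j` of the triple. -/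
noncomputable def DT (M : Matrix (Fin 3) (Fin 3) ℂ) : RE φ a b c :=
  LinearMap.toContinuousLinearMap (Tf ht φ ∘ₗ DD M ∘ₗ Tb ht φ)

theorem DT_apply (M : Matrix (Fin 3) (Fin 3) ℂ) (v : Alb (uw φ (up E a)) (uw φ (up E b))
    (uw φ (up E c))) : DT ht φ M v = Tf ht φ (DD M (Tb ht φ v)) := by
  rw [DT, LinearMap.coe_toContinuousLinearMap', LinearMap.comp_apply, LinearMap.comp_apply]

theorem DT_ev (M : Matrix (Fin 3) (Fin 3) ℂ) (u : AlbL E a' b' c') :
    DT ht φ M (ev φ (tripA E ht u)) = Tf ht φ (DD M (ev φ u)) := by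
  rw [DT_apply, Tb_ev, LinearEquiv.symm_apply_apply]

theorem DT_add (M M' : Matrix (Fin 3) (Fin 3) ℂ) :
    DT ht φ (M + M') = DT ht φ M + DT ht φ M' := by
  apply ContinuousLinearMap.ext
  intro v
  rw [_root_.add_apply, DT_apply, DT_apply, DT_apply, DD_add, LinearMap.add_apply,
    map_add]

theorem DT_smul (t : ℂ) (M : Matrix (Fin 3) (Fin 3) ℂ) :
    DT ht φ (t • M) = t • DT ht φ M := by
  apply ContinuousLinearMap.ext
  intro v
  rw [_root_.smul_apply, DT_apply, DT_apply, DD_smul, LinearMap.smul_apply, map_smul]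

theorem DT_zero : DT ht φ (0 : Matrix (Fin 3) (Fin 3) ℂ) = 0 := by
  apply ContinuousLinearMap.ext
  intro v
  have h := DD_smul (a := uw φ (up E a')) (b := uw φ (up E b')) (c := uw φ (up E c')) (0 : ℂ) 0
  rw [zero_smul, zero_smul] at h
  rw [DT_apply, h, LinearMap.zero_apply, map_zero]
  rfl

/-- The derivation attached to `M j` is in the span of the derivations attached to `x j`. -/
theorem DT_mem_span {S : Set (Matrix (Fin 3) (Fin 3) ℂ)} {M : Matrix (Fin 3) (Fin 3) ℂ}
    (hM : M ∈ Submodule.span ℂ S) : DT ht φ M ∈ Submodule.span ℂ {X | ∃ z ∈ S, X = DT ht φ z} := by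
  induction hM using Submodule.span_induction with
  | mem x hx => exact Submodule.subset_span ⟨x, hx, rfl⟩
  | zero =>
    rw [DT_zero]
    exact Submodule.zero_mem _
  | add x y _ _ hx hy =>
    rw [DT_add]
    exact Submodule.add_mem _ hx hy
  | smul t x _ hx =>
    rw [DT_smul]
    exact Submodule.smul_mem _ _ hx

end trip

end Vale.Agent.P011.H500.Rl
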