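import Vale.Agent.P011.E6O.H68.Split
import Vale.Agent.P011.E6.Lanczos

/-!
The reduced norm of matrices of degree three over an arbitrary quaternion algebra.
-/

open Matrix

namespace Vale.Agent.P011.H500.Rl

open Vale.Agent.P011.MPQ Vale.Agent.P011.D4 Vale.Agent.P011.D4.Oct Vale.Agent.P011.E6
open Vale.Agent.P011.E6O.H68
open Vale.Agent.P011.E6.H369 (nu_up act_aup coe_uup uup map_qup_mul)

variable {F : Type} [Field F] {a b c : Fˣ}

theorem exists_sqrtA (a : Fˣ) :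
    ∃ α : AlgebraicClosure F, α * α = (up (AlgebraicClosure F) a : (AlgebraicClosure F)ˣ) := by
  obtain ⟨α, hα⟩ := IsAlgClosed.exists_pow_nat_eq
    ((up (AlgebraicClosure F) a : (AlgebraicClosure F)ˣ) : AlgebraicClosure F) (n := 2) (by norm_num)
  exact ⟨α, by rw [← hα, pow_two]⟩

theorem two_ne' (h2 : (2 : F) ≠ 0) : (2 : AlgebraicClosure F) ≠ 0 := by
  intro h
  apply h2
  apply (algebraMap F (AlgebraicClosure F)).injective
  rw [map_ofNat, map_zero, h]

theorem nu_mulG (h2 : (2 : F) ≠ 0) (A B : Matrix (Fin 3) (Fin 3) (Qt a b)) :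
    nu (A * B) = nu A * nu B := by
  obtain ⟨α, hα⟩ := exists_sqrtA a
  apply (algebraMap F (AlgebraicClosure F)).injective
  rw [map_mul, ← nu_up, ← nu_up, ← nu_up, map_qup_mul, nu_mulS (spq (two_ne' h2) hα) (two_ne' h2)]

theorem cub_actG (h2 : (2 : F) ≠ 0) (g : (Matrix (Fin 3) (Fin 3) (Qt a b))ˣ) {κ : Qt a b}
    (hκ : nrd κ = nu (g : Matrix (Fin 3) (Fin 3) (Qt a b))) (x : Alb a b c) :
    Alb.cub (Alb.act g κ x) = nu (g : Matrix (Fin 3) (Fin 3) (Qt a b)) * Alb.cub x := by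
  obtain ⟨α, hα⟩ := exists_sqrtA a
  apply (algebraMap F (AlgebraicClosure F)).injective
  rw [map_mul, ← Alb.cub_aup, ← Alb.cub_aup, ← act_aup, ← nu_up]
  refine cub_actS (spq (two_ne' h2) hα) (two_ne' h2) (uup (AlgebraicClosure F) g) ?_ _
  rw [nrd_qup, hκ, coe_uup, nu_up]

end Vale.Agent.P011.H500.Rl
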