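import Vale.Agent.P011.H261.Rl.Lie

/-!
Elements of the Lie algebra of a closed submonoid of a product.
-/

open Filter Topology NormedSpace

namespace Vale.Agent.P011.H500.Rl

open Vale.Agent.P011.H261.Rl

section

variable {S : Type} [Fintype S] [DecidableEq S] {A : S → Type} [∀ v, NormedRing (A v)]
  [∀ v, NormedAlgebra ℝ (A v)] [∀ v, CompleteSpace (A v)]
  {L : Set (∀ v, A v)}

/-- The exponential of a limit concentrated at one place. -/
theorem exp_single_mem [∀ v, NormOneClass (A v)] (h1 : 1 ∈ L)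
    (hm : ∀ x ∈ L, ∀ y ∈ L, x * y ∈ L) (hc : IsClosed L) {g : ℕ → ∀ v, A v} (hg : ∀ n, g n ∈ L)
    (v : S) {X : A v} (hv : Tendsto (fun n : ℕ => (n : ℝ) • (g n v - 1)) atTop (𝓝 X))
    (hw : ∀ w, w ≠ v → Tendsto (fun n : ℕ => (n : ℝ) • (g n w - 1)) atTop (𝓝 0)) :
    exp (Pi.single v X) ∈ L := by
  have : Nonempty S := ⟨v⟩
  refine exp_mem_of_tendsto h1 hm hc hg ?_
  rw [tendsto_pi_nhds]
  intro w
  by_cases h : w = v
  · subst h
    rw [Pi.single_eq_same]
    exact hv
  · rw [Pi.single_eq_of_ne h]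
    exact hw w h

theorem single_mem_lieOf (v : S) {X : A v} (h : ∀ t : ℝ, exp (Pi.single v (t • X)) ∈ L) :
    (Pi.single v X : ∀ v, A v) ∈ lieOf L := by
  intro t
  rw [← Pi.single_smul]
  exact h t

end

end Vale.Agent.P011.H500.Rl
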