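import Vale.Agent.P011.H500.Rl.Act1

/-!
The derivations attached to the elementary matrices.
-/

open Matrix

namespace Vale.Agent.P011.H500.Rl

open Vale.Agent.P011.MPQ
open Vale.Agent.P011.D4 Vale.Agent.P011.D4.Oct Vale.Agent.P011.E6
open Vale.Agent.P011.H261.Rl

variable {F : Type} [Field F] {a b c : Fˣ}

theorem xm_single (p q : Fin 3) (t : F) : xm a b (0, Matrix.single p q t) =
    Matrix.single p q (⟨0, 0, t, 0⟩ : Qt a b) := by
  apply Matrix.ext
  intro i j
  by_cases h : p = i ∧ q = j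
  · obtain ⟨rfl, rfl⟩ := h
    rw [Matrix.single_apply_same]
    simp [xm, E6W.H964.Xm]
  · rw [Matrix.single_apply, if_neg h]
    simp only [xm, E6W.H964.Xm, Matrix.of_apply, Matrix.single_apply, if_neg h, Matrix.zero_apply]
    rfl

theorem S_apply (p q i j : Fin 3) (u w : Qt a b) (A : Matrix (Fin 3) (Fin 3) (Qt a b)) :
    (Matrix.single p q u * A + A * Matrix.single q p w) i j =
      (if p = i then u * A q j else 0) + (if p = j then A i q * w else 0) := by
  rw [Matrix.add_apply]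
  congr 1
  · by_cases h : p = i
    · subst h
      rw [if_pos rfl, Matrix.single_mul_apply_same]
    · rw [if_neg h, Matrix.single_mul_apply_of_ne _ _ _ _ _ (Ne.symm h)]
  · by_cases h : p = j
    · subst h
      rw [if_pos rfl, Matrix.mul_single_apply_same]
    · rw [if_neg h, Matrix.mul_single_apply_of_ne _ _ _ _ _ (Ne.symm h)]

theorem ct_single (p q : Fin 3) (u : Qt a b) :
    (Matrix.single p q u)ᴴ = Matrix.single q p (star u) := by
  apply Matrix.ext
  intro i j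
  rw [Matrix.conjTranspose_apply, Matrix.single_apply, Matrix.single_apply]
  by_cases h : p = j ∧ q = i
  · rw [if_pos h, if_pos ⟨h.2, h.1⟩]
  · rw [if_neg h, if_neg (fun h' => h ⟨h'.2, h'.1⟩), star_zero]

theorem vm_single (p q i : Fin 3) (v : Fin 3 → Qt a b) (u : Qt a b) :
    Matrix.vecMul v (Matrix.single p q u) i = if q = i then v p * u else 0 := by
  simp only [Matrix.vecMul, dotProduct, Matrix.single_apply]
  by_cases h : q = i
  · subst h
    rw [if_pos rfl, Finset.sum_eq_single p]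
    · rw [if_pos ⟨rfl, rfl⟩]
    · intro r _ hr
      rw [if_neg (fun h => hr h.1.symm), mul_zero]
    · intro h0
      exact absurd (Finset.mem_univ p) h0
  · rw [if_neg h]
    exact Finset.sum_eq_zero fun r _ => by rw [if_neg (fun h' => h h'.2), mul_zero]

/-- The quaternion `j`. -/
def qj : Qt a b := ⟨0, 0, 1, 0⟩

theorem DD_single (p q : Fin 3) (v : Alb a b c) : DD (Matrix.single p q 1) v =
    Alb.ofMV (Matrix.of fun i j => (if p = i then qj * Alb.mat v q j else 0) +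
      (if p = j then Alb.mat v i q * star qj else 0))
      (fun i => if q = i then Alb.vec v p * -qj else 0) := by
  rw [DD_apply]
  change Alb.ofMV (xm a b (0, Matrix.single p q 1) * Alb.mat v +
    Alb.mat v * (xm a b (0, Matrix.single p q 1))ᴴ)
    (Matrix.vecMul (Alb.vec v) (xm a b (ng (0, Matrix.single p q 1)))) = _
  have h1 : ng ((0, Matrix.single p q 1) : WW F) = (0, Matrix.single p q (-1)) := by
    rw [ng]
    congr 1
    apply Matrix.ext
    intro i j
    change -(Matrix.single p q (1 : F) i j) = Matrix.single p q (-1) i j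
    rw [Matrix.single_apply, Matrix.single_apply]
    split_ifs <;> simp
  have h2 : (⟨0, 0, -1, 0⟩ : Qt a b) = -qj := by
    apply QuaternionAlgebra.ext <;> simp [qj]
  rw [h1, xm_single, xm_single, ct_single, h2]
  congr 1
  · apply Matrix.ext
    intro i j
    rw [S_apply, Matrix.of_apply]
    rfl
  · funext i
    rw [vm_single]

theorem DD_P1 : (DD (Matrix.single 1 2 1) : Alb a b c →ₗ[F] Alb a b c) = P1 gj := by
  apply LinearMap.ext
  intro v
  rw [DD_single]
  ext1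
  · simp [P1, Alb.ofMV]
  · simp [P1, Alb.ofMV, Alb.mat, qj, gj, bil_eq]
    ring
  · simp [P1, Alb.ofMV]
  · apply ext8 <;> simp [P1, Alb.ofMV, Alb.mat, qj, gj]
  · apply ext8 <;> simp [P1, Alb.ofMV, Alb.mat, qj, gj]
  · apply ext8 <;> simp [P1, Alb.ofMV, Alb.mat, Alb.vec, qj, gj]

theorem DD_P2 : (DD (Matrix.single 2 0 1) : Alb a b c →ₗ[F] Alb a b c) = P2 gj := by
  apply LinearMap.ext
  intro v
  rw [DD_single]
  ext1
  · simp [P2, Alb.ofMV, Alb.mat, qj, gj, bil_eq] <;> ring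
  · simp [P2, Alb.ofMV, Alb.mat, qj, gj, bil_eq] <;> ring
  · simp [P2, Alb.ofMV, Alb.mat, qj, gj, bil_eq] <;> ring
  · apply ext8 <;> simp [P2, Alb.ofMV, Alb.mat, Alb.vec, qj, gj]
  · apply ext8 <;> simp [P2, Alb.ofMV, Alb.mat, Alb.vec, qj, gj]
  · apply ext8 <;> simp [P2, Alb.ofMV, Alb.mat, Alb.vec, qj, gj]

theorem DD_P3 : (DD (Matrix.single 0 1 1) : Alb a b c →ₗ[F] Alb a b c) = P3 gj := by
  apply LinearMap.ext
  intro v
  rw [DD_single]
  ext1
  · simp [P3, Alb.ofMV, Alb.mat, qj, gj, bil_eq] <;> ring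
  · simp [P3, Alb.ofMV, Alb.mat, qj, gj, bil_eq] <;> ring
  · simp [P3, Alb.ofMV, Alb.mat, qj, gj, bil_eq] <;> ring
  · apply ext8 <;> simp [P3, Alb.ofMV, Alb.mat, Alb.vec, qj, gj]
  · apply ext8 <;> simp [P3, Alb.ofMV, Alb.mat, Alb.vec, qj, gj]
  · apply ext8 <;> simp [P3, Alb.ofMV, Alb.mat, Alb.vec, qj, gj]

theorem DD_M1 : (DD (Matrix.single 2 1 1) : Alb a b c →ₗ[F] Alb a b c) = M1 gj := by
  apply LinearMap.ext
  intro v
  rw [DD_single]
  ext1
  · simp [M1, Alb.ofMV, Alb.mat, qj, gj, bil_eq] <;> ring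
  · simp [M1, Alb.ofMV, Alb.mat, qj, gj, bil_eq] <;> ring
  · simp [M1, Alb.ofMV, Alb.mat, qj, gj, bil_eq] <;> ring
  · apply ext8 <;> simp [M1, Alb.ofMV, Alb.mat, Alb.vec, qj, gj]
  · apply ext8 <;> simp [M1, Alb.ofMV, Alb.mat, Alb.vec, qj, gj]
  · apply ext8 <;> simp [M1, Alb.ofMV, Alb.mat, Alb.vec, qj, gj]

theorem DD_M2 : (DD (Matrix.single 0 2 1) : Alb a b c →ₗ[F] Alb a b c) = M2 gj := by
  apply LinearMap.ext
  intro v
  rw [DD_single]
  ext1
  · simp [M2, Alb.ofMV, Alb.mat, qj, gj, bil_eq] <;> ring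
  · simp [M2, Alb.ofMV, Alb.mat, qj, gj, bil_eq] <;> ring
  · simp [M2, Alb.ofMV, Alb.mat, qj, gj, bil_eq] <;> ring
  · apply ext8 <;> simp [M2, Alb.ofMV, Alb.mat, Alb.vec, qj, gj]
  · apply ext8 <;> simp [M2, Alb.ofMV, Alb.mat, Alb.vec, qj, gj]
  · apply ext8 <;> simp [M2, Alb.ofMV, Alb.mat, Alb.vec, qj, gj]

theorem DD_M3 : (DD (Matrix.single 1 0 1) : Alb a b c →ₗ[F] Alb a b c) = M3 gj := by
  apply LinearMap.ext
  intro v
  rw [DD_single]
  ext1
  · simp [M3, Alb.ofMV, Alb.mat, qj, gj, bil_eq] <;> ring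
  · simp [M3, Alb.ofMV, Alb.mat, qj, gj, bil_eq] <;> ring
  · simp [M3, Alb.ofMV, Alb.mat, qj, gj, bil_eq] <;> ring
  · apply ext8 <;> simp [M3, Alb.ofMV, Alb.mat, Alb.vec, qj, gj]
  · apply ext8 <;> simp [M3, Alb.ofMV, Alb.mat, Alb.vec, qj, gj]
  · apply ext8 <;> simp [M3, Alb.ofMV, Alb.mat, Alb.vec, qj, gj]

end Vale.Agent.P011.H500.Rl
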