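import Vale.Agent.P011.H500.Rl.Curve
import Vale.Agent.P011.H500.Rl.PiL

/-!
The tangent vectors are in the Lie algebra of the closure.
-/

open Matrix Filter Topology NormedSpace

namespace Vale.Agent.P011.H500.Rl

open Vale.Agent.P011.MPQ
open Vale.Agent.P011.D4 Vale.Agent.P011.D4.Oct Vale.Agent.P011.E6
open Vale.Agent.P011.E6W.H964 (Xm Sy conj_trip)
open Vale.Agent.P011.E6O (InD0 GO)
open Vale.Agent.P011.H261.Rl
open scoped ComplexConjugate

variable {k E : Type} [Field k] [NumberField k] [Field E] [NumberField E] [Algebra k E]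
  {ρ σ : E ≃ₐ[k] E} {lam : Eˣ} {g : Fin 3 → Eˣ} {a b c a' b' c' : kˣ} {i j l : Oct a b c}
  (ht : Trip a' b' c' i j l) {x : Matrix (Fin 3) (Fin 3) E}

variable {S : Type} [Fintype S] [DecidableEq S] (φ : S → E →+* ℂ)
  (hφ : ∀ v v', (∀ x : k, ‖φ v (algebraMap k E x)‖ = ‖φ v' (algebraMap k E x)‖) → v = v')

theorem tendsto_lcR (φ : E →+* ℂ) {t : ℕ → k} {z : ℂ}
    (hz : Tendsto (fun n : ℕ => (n : ℂ) * φ (algebraMap k E (t n))) atTop (𝓝 z))
    {f : ℕ → G3 ρ σ lam g a b c}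
    (hf : ∀ n, ∀ (hd : (Dl ((algebraMap k E (t n)) • x) ((up E b' : Eˣ) : E)).det ≠ 0)
      (u : AlbL E a' b' c'), (f n).1 (tripA E ht u) =
        tripA E ht (Alb.act (CU (up E a') (up E b') ((algebraMap k E (t n)) • x) hd) 1 u)) :
    Tendsto (fun n : ℕ => (n : ℝ) • (lc φ (f n).1 - 1)) atTop
      (𝓝 (DT ht φ ((2 * z) • x.map φ))) := by
  refine (tendsto_lc ht φ hz hf).congr fun n => ?_
  rw [smul_RE, Complex.ofReal_natCast]

include hφ in
/-- The exponential of the tangent vector is in the closure. -/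
theorem exp_mem (hx : InD0 ρ lam x) (hs : Sy σ g x) (v : S) {z : ℂ}
    (hz : (∀ x : k, conj (φ v (algebraMap k E x)) = φ v (algebraMap k E x)) → conj z = z) :
    exp (Pi.single v (DT ht (φ v) ((2 * z) • x.map (φ v))) : ∀ v : S, RE (φ v) a b c) ∈
      Lcl φ (⊤ : Subgroup (G3 ρ σ lam g a b c)) := by
  obtain ⟨t, h1, h2⟩ := H706.Rl.exists_seq φ hφ v z hz
  choose f hf using fun n => exists_fam (ρ := ρ) (σ := σ) (lam := lam) (g := g) ht hx hs (t n)
  refine exp_single_mem (A := fun v => RE (φ v) a b c) (one_mem_Lcl φ _) (mul_mem_Lcl φ _)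
    isClosed_closure (g := fun n w => lc (φ w) (f n).1)
    (fun n => lc_mem_Lcl φ _ (Subgroup.mem_top _)) v (tendsto_lcR ht (φ v) h1 hf) fun w hw => ?_
  have := tendsto_lcR ht (φ w) (h2 w hw) hf
  rwa [mul_zero, zero_smul, DT_zero] at this

include hφ in
/-- The tangent vector is in the Lie algebra of the closure. -/
theorem single_mem (hx : InD0 ρ lam x) (hs : Sy σ g x) (v : S) {z : ℂ}
    (hz : (∀ x : k, conj (φ v (algebraMap k E x)) = φ v (algebraMap k E x)) → conj z = z) :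
    (Pi.single v (DT ht (φ v) ((2 * z) • x.map (φ v))) : ∀ v : S, RE (φ v) a b c) ∈
      lieOf (Lcl φ (⊤ : Subgroup (G3 ρ σ lam g a b c))) := by
  refine single_mem_lieOf (A := fun v => RE (φ v) a b c) v fun t => ?_
  have e : t • DT ht (φ v) ((2 * z) • x.map (φ v)) =
      DT ht (φ v) ((2 * ((t : ℂ) * z)) • x.map (φ v)) := by
    rw [smul_RE, ← DT_smul, smul_smul]
    congr 2
    ring
  rw [e]
  exact exp_mem (g := g) ht φ hφ hx hs v (z := (t : ℂ) * z) fun h => by
    rw [map_mul, Complex.conj_ofReal, hz h]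

end Vale.Agent.P011.H500.Rl
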